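/-
Row 324, S0582 (Ricci flow on S^2 x S^(q+1), bounded scalar curvature, |Rm| unbounded).
Reduced (cohomogeneity one) formulation.  Chief architect: helper232.
Blueprint: origin/helper232:docs/R324_blueprint.md.

Points of S^2 x S^(q+1) in R^3 x R^(q+2) are (u, v); `y` is the FIRST coordinate of v (index 3 of the ambient space).
Metrics:   g = A(t,y) g_round(S^(q+1)) + B(t,y) dy^2 + C(t,y) g_round(S^2),
ambient form  g(ξ,η) = A <ξ_v,η_v> + B ξ_3 η_3 + C <ξ_u,η_u>,   A, B, C smooth functions of (t,y) in (t₀,T) x R.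
On -1<y<1:  g = e^a dy^2 + e^β g_{S^q} + e^γ g_{S^2},
   e^a = A/(1-y^2) + B,   e^β = A (1-y^2),   e^γ = C.
-/
import Mathlib

set_option autoImplicit false

namespace Claimed.Agent.R324

open Set
open scoped ContDiff

/-- `-2 Ric(∂r,∂r)/g(∂r,∂r)` of `e^a dr^2 + e^β g_{S^q} + e^γ g_{S^2}` (any radial coordinate `r`). -/
noncomputable def rfA (q : ℝ) (a β γ : ℝ → ℝ) (r : ℝ) : ℝ :=
  Real.exp (-a r) * (q * deriv (deriv β) r + 2 * deriv (deriv γ) r + q / 2 * (deriv β r) ^ 2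
    + (deriv γ r) ^ 2 - deriv a r * (q * deriv β r / 2 + deriv γ r))

/-- `-2 Ric/g` in the `S^q` directions. -/
noncomputable def rfB (q : ℝ) (a β γ : ℝ → ℝ) (r : ℝ) : ℝ :=
  Real.exp (-a r) * (deriv (deriv β) r - deriv a r * deriv β r / 2 + q / 2 * (deriv β r) ^ 2
    + deriv β r * deriv γ r) - 2 * (q - 1) * Real.exp (-β r)

/-- `-2 Ric/g` in the `S^2` directions. -/
noncomputable def rfC (q : ℝ) (a β γ : ℝ → ℝ) (r : ℝ) : ℝ :=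
  Real.exp (-a r) * (deriv (deriv γ) r - deriv a r * deriv γ r / 2 + q / 2 * deriv β r * deriv γ r
    + (deriv γ r) ^ 2) - 2 * Real.exp (-γ r)

/-- scalar curvature. -/
noncomputable def scalRed (q : ℝ) (a β γ : ℝ → ℝ) (r : ℝ) : ℝ :=
  -(rfA q a β γ r + q * rfB q a β γ r + 2 * rfC q a β γ r) / 2

/-- sectional curvature of the planes tangent to the `S^2` factor. -/
noncomputable def kPsi (a γ : ℝ → ℝ) (r : ℝ) : ℝ :=
  Real.exp (-γ r) - Real.exp (-a r) * (deriv γ r) ^ 2 / 4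

/-- `a = log (A/(1-y^2) + B)`. -/
noncomputable def laOf (A B : ℝ × ℝ → ℝ) (t y : ℝ) : ℝ :=
  Real.log ((A (t, y) + (1 - y ^ 2) * B (t, y)) / (1 - y ^ 2))

/-- `β = log (A (1-y^2))`. -/
noncomputable def lbOf (A : ℝ × ℝ → ℝ) (t y : ℝ) : ℝ := Real.log (A (t, y) * (1 - y ^ 2))

/-- `γ = log C`. -/
noncomputable def lcOf (C : ℝ × ℝ → ℝ) (t y : ℝ) : ℝ := Real.log (C (t, y))

/-- smoothness and positivity of the three coefficient functions. -/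
structure RedMetric (t₀ T : ℝ) (A B C : ℝ × ℝ → ℝ) : Prop where
  smA : ContDiffOn ℝ ∞ A (Ioo t₀ T ×ˢ univ)
  smB : ContDiffOn ℝ ∞ B (Ioo t₀ T ×ˢ univ)
  smC : ContDiffOn ℝ ∞ C (Ioo t₀ T ×ˢ univ)
  posA : ∀ t ∈ Ioo t₀ T, ∀ y ∈ Icc (-1 : ℝ) 1, 0 < A (t, y)
  posE : ∀ t ∈ Ioo t₀ T, ∀ y ∈ Icc (-1 : ℝ) 1, 0 < A (t, y) + (1 - y ^ 2) * B (t, y)
  posC : ∀ t ∈ Ioo t₀ T, ∀ y ∈ Icc (-1 : ℝ) 1, 0 < C (t, y)

/-- Reduced Ricci flow (fixed coordinate `y`, no gauge term). -/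
structure RedRF (q : ℕ) (t₀ T : ℝ) (A B C : ℝ × ℝ → ℝ) : Prop extends RedMetric t₀ T A B C where
  lt : t₀ < T
  flowA : ∀ t ∈ Ioo t₀ T, ∀ y ∈ Ioo (-1 : ℝ) 1,
    deriv (fun s => laOf A B s y) t = rfA q (laOf A B t) (lbOf A t) (lcOf C t) y
  flowB : ∀ t ∈ Ioo t₀ T, ∀ y ∈ Ioo (-1 : ℝ) 1,
    deriv (fun s => lbOf A s y) t = rfB q (laOf A B t) (lbOf A t) (lcOf C t) y
  flowC : ∀ t ∈ Ioo t₀ T, ∀ y ∈ Ioo (-1 : ℝ) 1,
    deriv (fun s => lcOf C s y) t = rfC q (laOf A B t) (lbOf A t) (lcOf C t) y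

/-- Reduced Ricci flow modified by the Lie derivative of the vector field `(1-y^2) W(t,y) ∂_y`. -/
structure RedGF (q : ℕ) (t₀ T : ℝ) (A B C W : ℝ × ℝ → ℝ) : Prop extends RedMetric t₀ T A B C where
  lt : t₀ < T
  smW : ContDiffOn ℝ ∞ W (Ioo t₀ T ×ˢ univ)
  flowA : ∀ t ∈ Ioo t₀ T, ∀ y ∈ Ioo (-1 : ℝ) 1,
    deriv (fun s => laOf A B s y) t = rfA q (laOf A B t) (lbOf A t) (lcOf C t) y
      + (1 - y ^ 2) * W (t, y) * deriv (laOf A B t) y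
      + 2 * deriv (fun z => (1 - z ^ 2) * W (t, z)) y
  flowB : ∀ t ∈ Ioo t₀ T, ∀ y ∈ Ioo (-1 : ℝ) 1,
    deriv (fun s => lbOf A s y) t = rfB q (laOf A B t) (lbOf A t) (lcOf C t) y
      + (1 - y ^ 2) * W (t, y) * deriv (lbOf A t) y
  flowC : ∀ t ∈ Ioo t₀ T, ∀ y ∈ Ioo (-1 : ℝ) 1,
    deriv (fun s => lcOf C s y) t = rfC q (laOf A B t) (lbOf A t) (lcOf C t) y
      + (1 - y ^ 2) * W (t, y) * deriv (lcOf C t) y

/-- bounded scalar curvature. -/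
def ScalBdd (q : ℕ) (t₀ T : ℝ) (A B C : ℝ × ℝ → ℝ) : Prop :=
  ∃ C₀ : ℝ, ∀ t ∈ Ioo t₀ T, ∀ y ∈ Ioo (-1 : ℝ) 1,
    |scalRed q (laOf A B t) (lbOf A t) (lcOf C t) y| ≤ C₀

/-- the curvature of the `S^2` fibres blows up as `t → T`. -/
def CurvBlow (t₀ T : ℝ) (A B C : ℝ × ℝ → ℝ) : Prop :=
  ∀ K : ℝ, ∃ δ : ℝ, 0 < δ ∧ ∀ t ∈ Ioo (T - δ) T, t₀ < t →
    ∃ y ∈ Ioo (-1 : ℝ) 1, K < (kPsi (laOf A B t) (lcOf C t) y) ^ 2

end Claimed.Agent.R324
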