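/-
Row 324, module MP: evolution of the scalar curvature under the gauged reduced flow, maximum principle.
Blueprint: origin/helper232:docs/R324_blueprint.md, section 6.
-/
import Claimed.Agent.R324.Reduced
import Claimed.Agent.R324.MP.WeakMax
import Claimed.Agent.R324.MP.Main

set_option autoImplicit false

namespace Claimed.Agent.R324

open Set
open scoped ContDiff

/-- MP1.  Evolution of the scalar curvature.  `a b c V` smooth on the open set `I ×ˢ J`
(`I`, `J` open intervals), solving the gauged flow there.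
The identity was checked by exact differential-polynomial arithmetic. -/
theorem scal_evolution (q : ℝ) (I J : Set ℝ) (hI : IsOpen I) (hJ : IsOpen J) (a b c V : ℝ × ℝ → ℝ)
    (ha : ContDiffOn ℝ ∞ a (I ×ˢ J)) (hb : ContDiffOn ℝ ∞ b (I ×ˢ J))
    (hc : ContDiffOn ℝ ∞ c (I ×ˢ J)) (hV : ContDiffOn ℝ ∞ V (I ×ˢ J))
    (fa : ∀ t ∈ I, ∀ r ∈ J, deriv (fun s => a (s, r)) t
      = rfA q (fun z => a (t, z)) (fun z => b (t, z)) (fun z => c (t, z)) r
        + V (t, r) * deriv (fun z => a (t, z)) r + 2 * deriv (fun z => V (t, z)) r)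
    (fb : ∀ t ∈ I, ∀ r ∈ J, deriv (fun s => b (s, r)) t
      = rfB q (fun z => a (t, z)) (fun z => b (t, z)) (fun z => c (t, z)) r
        + V (t, r) * deriv (fun z => b (t, z)) r)
    (fc : ∀ t ∈ I, ∀ r ∈ J, deriv (fun s => c (s, r)) t
      = rfC q (fun z => a (t, z)) (fun z => b (t, z)) (fun z => c (t, z)) r
        + V (t, r) * deriv (fun z => c (t, z)) r) :
    ∀ t ∈ I, ∀ r ∈ J,
      deriv (fun s => scalRed q (fun z => a (s, z)) (fun z => b (s, z)) (fun z => c (s, z)) r) t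
      = Real.exp (-a (t, r)) *
          (iteratedDeriv 2 (scalRed q (fun z => a (t, z)) (fun z => b (t, z)) (fun z => c (t, z))) r
            + (-deriv (fun z => a (t, z)) r / 2 + q * deriv (fun z => b (t, z)) r / 2
                + deriv (fun z => c (t, z)) r)
              * deriv (scalRed q (fun z => a (t, z)) (fun z => b (t, z)) (fun z => c (t, z))) r)
        + V (t, r) * deriv (scalRed q (fun z => a (t, z)) (fun z => b (t, z)) (fun z => c (t, z))) r
        + ((rfA q (fun z => a (t, z)) (fun z => b (t, z)) (fun z => c (t, z)) r) ^ 2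
          + q * (rfB q (fun z => a (t, z)) (fun z => b (t, z)) (fun z => c (t, z)) r) ^ 2
          + 2 * (rfC q (fun z => a (t, z)) (fun z => b (t, z)) (fun z => c (t, z)) r) ^ 2) / 2 :=
  mp_scal_evolution q I J hI hJ a b c V ha hb hc hV fa fb fc

/-- MP2.  Weak maximum principle on `[t₁,t₂] × [-1,1]` for operators degenerating at `y = ±1`.
`u` is `C^2` on a neighbourhood of the closed rectangle, the differential inequality is required in the open interval only. -/
theorem max_principle (t₁ t₂ : ℝ) (h12 : t₁ ≤ t₂) (u al be : ℝ × ℝ → ℝ) (O : Set (ℝ × ℝ)) (hO : IsOpen O)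
    (hsub : Icc t₁ t₂ ×ˢ Icc (-1 : ℝ) 1 ⊆ O) (hu : ContDiffOn ℝ 2 u O)
    (hal : ∀ t ∈ Icc t₁ t₂, ∀ y ∈ Ioo (-1 : ℝ) 1, 0 ≤ al (t, y))
    (hineq : ∀ t ∈ Icc t₁ t₂, ∀ y ∈ Ioo (-1 : ℝ) 1,
      deriv (fun s => u (s, y)) t ≤ al (t, y) * iteratedDeriv 2 (fun z => u (t, z)) y
        + be (t, y) * deriv (fun z => u (t, z)) y)
    (hend : ∀ t ∈ Icc t₁ t₂, ∀ y : ℝ, (y = 1 ∨ y = -1) → ∃ κ : ℝ, 0 ≤ κ ∧
      deriv (fun s => u (s, y)) t ≤ -κ * y * deriv (fun z => u (t, z)) y)
    (M : ℝ) (h0 : ∀ y ∈ Icc (-1 : ℝ) 1, u (t₁, y) ≤ M) :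
    ∀ t ∈ Icc t₁ t₂, ∀ y ∈ Icc (-1 : ℝ) 1, u (t, y) ≤ M :=
  mp_max_principle t₁ t₂ h12 u al be O hO hsub hu hal hineq hend M h0

end Claimed.Agent.R324
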