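/-
Row 324, module E2 (linear engine for second order degenerate parabolic systems on [-1,1]).
Port of the engine of row 325 (Claimed/Agent/R325/Eng*.lean).  Blueprint: origin/helper232:docs/R324_blueprint.md, section 5.
-/
import Claimed.Agent.R324.E2.Conv

set_option autoImplicit false

namespace Claimed.Agent.R324

open Set
open scoped ContDiff

/-- smooth on `(-∞,T) × ℝ`. -/
def SmT (T : ℝ) (f : ℝ × ℝ → ℝ) : Prop := ContDiffOn ℝ ∞ f (Iio T ×ˢ (univ : Set ℝ))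

/-- "dimension" of the three components: `q+1, q+1, q+5`. -/
def e2dim (q : ℕ) (j : Fin 3) : ℝ := if j = 2 then (q : ℝ) + 5 else (q : ℝ) + 1

/-- structural factor of the zeroth order coupling: the third component enters the first two
only through `(1-y^2) U_2`. -/
def e2fac (j k : Fin 3) (y : ℝ) : ℝ := if k = 2 ∧ j ≠ 2 then 1 - y ^ 2 else 1

/-- the local part of the operator. -/
noncomputable def e2Loc (q : ℕ) (a : ℝ × ℝ → ℝ) (b : Fin 3 → ℝ × ℝ → ℝ)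
    (c : Fin 3 → Fin 3 → ℝ × ℝ → ℝ) (U : Fin 3 → ℝ × ℝ → ℝ) (j : Fin 3) (t y : ℝ) : ℝ :=
  a (t, y) * (1 - y ^ 2) * iteratedDeriv 2 (fun z => U j (t, z)) y
    + (-(e2dim q j) * y * a (t, y) + (1 - y ^ 2) * b j (t, y)) * deriv (fun z => U j (t, z)) y
    + ∑ k, e2fac j k y * c j k (t, y) * U k (t, y)

theorem engine2 (q : ℕ) (hq : Odd q) (t₁ T : ℝ) (a : ℝ × ℝ → ℝ) (b F : Fin 3 → ℝ × ℝ → ℝ)
    (c : Fin 3 → Fin 3 → ℝ × ℝ → ℝ) (N : ℕ) (e k : Fin N → Fin 3 → ℝ × ℝ → ℝ)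
    (ha : SmT T a) (hb : ∀ j, SmT T (b j)) (hF : ∀ j, SmT T (F j)) (hc : ∀ j l, SmT T (c j l))
    (he : ∀ i j, SmT T (e i j)) (hk : ∀ i j, SmT T (k i j))
    (hpos : ∀ t < T, ∀ y ∈ Icc (-1 : ℝ) 1, 0 < a (t, y))
    (hF0 : ∀ j, ∀ t ≤ t₁, ∀ y ∈ Icc (-1 : ℝ) 1, F j (t, y) = 0) :
    ∃ U : Fin 3 → ℝ × ℝ → ℝ, (∀ j, SmT T (U j)) ∧
      (∀ j, ∀ t ≤ t₁, ∀ y ∈ Icc (-1 : ℝ) 1, U j (t, y) = 0) ∧
      ∀ j, ∀ t < T, ∀ y ∈ Icc (-1 : ℝ) 1,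
        deriv (fun s => U j (s, y)) t = e2Loc q a b c U j t y
          + ∑ i, e i j (t, y) * (∫ ξ in (-1 : ℝ)..1, ∑ l, k i l (t, ξ) * U l (t, ξ)) + F j (t, y) :=
  engine2_main q hq t₁ T a b F c N e k ha hb hF hc he hk hpos hF0

end Claimed.Agent.R324
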