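/-
Row 324, module G (geometry): a reduced Ricci flow gives the statement of S0582.
Blueprint: origin/helper232:docs/R324_blueprint.md, section 2.
-/
import Claimed.Prelude.Def_0510
import Claimed.Agent.R324.Reduced
import Claimed.Agent.R324.Geo.Main

set_option autoImplicit false

namespace Claimed.Agent.R324

open Set Claims.C0510
open scoped ContDiff

/-- the body of S0582 for a fixed `q`. -/
def Goal (q : ℕ) : Prop :=
  ∃ T : ℝ, 0 < T ∧
      ∃ g : ℝ → EuclideanSpace ℝ (Fin (3 + (q + 2))) →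
          EuclideanSpace ℝ (Fin (3 + (q + 2))) →L[ℝ] EuclideanSpace ℝ (Fin (3 + (q + 2))) →L[ℝ] ℝ,
        IsRicciFlow (q + 3) (spherePairProd q) g T ∧
        (∃ C : ℝ, ∀ (ψ : EuclideanSpace ℝ (Fin (q + 3)) → EuclideanSpace ℝ (Fin (3 + (q + 2))))
          (U : Set (EuclideanSpace ℝ (Fin (q + 3)))), IsLocalParam (spherePairProd q) ψ U →
            ∀ t ∈ Set.Ico 0 T, ∀ u ∈ U, |scalarCoord (coordMetric (g t) ψ) u| ≤ C) ∧
        ∀ C : ℝ, ∃ δ : ℝ, 0 < δ ∧ ∀ t ∈ Set.Ioo (T - δ) T,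
          ∃ (ψ : EuclideanSpace ℝ (Fin (q + 3)) → EuclideanSpace ℝ (Fin (3 + (q + 2))))
            (U : Set (EuclideanSpace ℝ (Fin (q + 3)))) (u : EuclideanSpace ℝ (Fin (q + 3))),
            IsLocalParam (spherePairProd q) ψ U ∧ u ∈ U ∧
              C < riemannNormSq (coordMetric (g t) ψ) u

theorem geometry (q : ℕ) (hq : 2 ≤ q) (t₀ T : ℝ) (A B C : ℝ × ℝ → ℝ)
    (h : RedRF q t₀ T A B C) (hR : ScalBdd q t₀ T A B C) (hK : CurvBlow t₀ T A B C) : Goal q :=
  geometry_main q hq t₀ T A B C h hR hK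

end Claimed.Agent.R324
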