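/-
Row 324, module R (reconstruction): remove the gauge term by the flow of the vector field.
Blueprint: origin/helper232:docs/R324_blueprint.md, section 3.
-/
import Claimed.Agent.R324.Rec.Main

set_option autoImplicit false

namespace Claimed.Agent.R324

open Set
open scoped ContDiff

theorem reconstruct (q : ℕ) (t₀ T : ℝ) (A B C W : ℝ × ℝ → ℝ)
    (h : RedGF q t₀ T A B C W) (hR : ScalBdd q t₀ T A B C) (hK : CurvBlow t₀ T A B C) :
    ∃ A' B' C' : ℝ × ℝ → ℝ, RedRF q t₀ T A' B' C' ∧ ScalBdd q t₀ T A' B' C' ∧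
      CurvBlow t₀ T A' B' C' :=
  reconstruct_main q t₀ T A B C W h hR hK

end Claimed.Agent.R324
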