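/-
Row 324 (S0582): final assembly.     pde_core (Core/Final.lean)  ⟹  reconstruct  ⟹  geometry.
Blueprint: origin/helper232:docs/R324_blueprint.md, section 7.8.
-/
import Claimed.Agent.R324.Geometry
import Claimed.Agent.R324.Reconstruct
import Claimed.Agent.R324.Core.Final

set_option autoImplicit false

namespace Claimed.Agent.R324

open Set
open scoped ContDiff

theorem goal_of_large_odd (q : ℕ) (hq : Odd q) (hq6 : 10 ^ 6 ≤ q) : Goal q := by
  obtain ⟨t₀, A, B, C, W, h, hR, hK⟩ := Core.pde_core q hq hq6
  obtain ⟨A', B', C', h', hR', hK'⟩ := reconstruct q t₀ 0 A B C W h hR hK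
  exact geometry q (by omega) t₀ 0 A' B' C' h' hR' hK'

end Claimed.Agent.R324
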